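import Mathlib
import Crest.Prelude.Def_OrderedMatrix

/-!
# Generic toolkit for ordered copies of a binary pattern (row 47, S0066)

Everything here is independent of any particular construction.

* `IsCopy H A r c` : `(r, c)` is an ordered copy of `H` in `A`;
* `orderedCopyCount_eq_zero_iff`, `orderedCopyCount_ne_zero_iff`;
* `diffCard A B` : number of cells where `A` and `B` differ (the set of the frozen statement);
* `le_diffCard_of_forcing` : **forcing-set packing** — pairwise disjoint cell sets each of which
  forces a copy give a lower bound for the distance to `H`-freeness;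
* `orderedCopyCount_le_of_hub` : **hub counting** — if every copy maps a fixed pattern cell
  `(i₀, j₀)` into a set `Z` of cells then there are at most `|Z| · n^(k-1) · n^(k-1)` copies.
-/

set_option autoImplicit false

namespace Crest.Agent.Helper45.OrdMat

open Crest.CombinatoricsR.OrderedMatrix

variable {k n : ℕ}

/-- `(r, c)` is an ordered copy of the pattern `H` in the host `A`. -/
def IsCopy (H : Fin k → Fin k → Bool) (A : Fin n → Fin n → Bool) (r c : Fin k → Fin n) : Prop :=
  StrictMono r ∧ StrictMono c ∧ ∀ i j : Fin k, A (r i) (c j) = H i j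

theorem orderedCopyCount_eq_zero_iff (H : Fin k → Fin k → Bool) (A : Fin n → Fin n → Bool) :
    orderedCopyCount H A = 0 ↔ ∀ r c : Fin k → Fin n, ¬ IsCopy H A r c := by
  unfold orderedCopyCount IsCopy
  rw [Fintype.card_eq_zero_iff]
  constructor
  · intro h r c hc
    exact h.elim ⟨(r, c), hc⟩
  · intro h
    exact ⟨fun x => h x.1.1 x.1.2 x.2⟩

theorem orderedCopyCount_ne_zero_iff (H : Fin k → Fin k → Bool) (A : Fin n → Fin n → Bool) :
    orderedCopyCount H A ≠ 0 ↔ ∃ r c : Fin k → Fin n, IsCopy H A r c := by
  rw [Ne, orderedCopyCount_eq_zero_iff]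
  push Not
  rfl

/-- The number of cells in which two matrices differ (the finite set of the frozen statement). -/
def diffCard (A B : Fin n → Fin n → Bool) : ℕ :=
  (Finset.univ.filter (fun rc : Fin n × Fin n => A rc.1 rc.2 ≠ B rc.1 rc.2)).card

/-- **Forcing-set packing.**  Let `Z i` (`i : ι`) be pairwise disjoint sets of cells such that every
matrix `B` agreeing with `A` on `Z i` contains a copy of `H`.  Then every `H`-free matrix differs
from `A` in at least `|ι|` cells. -/
theorem le_diffCard_of_forcing {ι : Type*} [Fintype ι] (H : Fin k → Fin k → Bool)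
    (A : Fin n → Fin n → Bool) (Z : ι → Finset (Fin n × Fin n))
    (hdisj : ∀ i j : ι, i ≠ j → Disjoint (Z i) (Z j))
    (hforce : ∀ i : ι, ∀ B : Fin n → Fin n → Bool,
      (∀ p ∈ Z i, B p.1 p.2 = A p.1 p.2) → orderedCopyCount H B ≠ 0)
    (B : Fin n → Fin n → Bool) (hB : orderedCopyCount H B = 0) :
    Fintype.card ι ≤ diffCard A B := by
  classical
  have hex : ∀ i : ι, ∃ p ∈ Z i, A p.1 p.2 ≠ B p.1 p.2 := by
    intro i
    by_contra hcon
    push Not at hcon
    exact hforce i B (fun p hp => (hcon p hp).symm) hB
  choose f hfZ hfne using hex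
  have hinj : Function.Injective f := by
    intro i j hij
    by_contra hne
    have hd := hdisj i j hne
    have h1 : f i ∈ Z i := hfZ i
    have h2 : f i ∈ Z j := hij ▸ hfZ j
    exact (Finset.disjoint_left.mp hd h1) h2
  unfold diffCard
  calc Fintype.card ι = (Finset.univ.image f).card := by
        rw [Finset.card_image_of_injective _ hinj, Finset.card_univ]
    _ ≤ _ := by
        apply Finset.card_le_card
        intro p hp
        obtain ⟨i, -, rfl⟩ := Finset.mem_image.mp hp
        simp only [Finset.mem_filter, Finset.mem_univ, true_and]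
        exact hfne i

/-- A function `Fin k → Fin n` with a prescribed value at `i₀` is determined by its restriction to
the other indices: there are at most `n ^ (k - 1)` of them. -/
theorem card_fun_fixed_le (i₀ : Fin k) (z : Fin n) :
    Fintype.card {f : Fin k → Fin n // f i₀ = z} ≤ n ^ (k - 1) := by
  classical
  have hk : 0 < k := Fin.pos i₀
  have : Fintype.card {f : Fin k → Fin n // f i₀ = z}
      ≤ Fintype.card ({i : Fin k // i ≠ i₀} → Fin n) := by
    apply Fintype.card_le_of_injective (fun f => fun i : {i : Fin k // i ≠ i₀} => f.1 i.1)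
    intro f g hfg
    apply Subtype.ext
    funext i
    by_cases hi : i = i₀
    · rw [hi, f.2, g.2]
    · exact congrFun hfg ⟨i, hi⟩
  refine this.trans ?_
  rw [Fintype.card_fun, Fintype.card_fin, Fintype.card_subtype_compl, Fintype.card_fin]
  simp

/-- **Hub counting.**  If every ordered copy of `H` in `A` sends the pattern cell `(i₀, j₀)` into
the set `Z` of host cells, then `A` contains at most `|Z| · n^(k-1) · n^(k-1)` copies. -/
theorem orderedCopyCount_le_of_hub (H : Fin k → Fin k → Bool) (A : Fin n → Fin n → Bool)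
    (i₀ j₀ : Fin k) (Z : Finset (Fin n × Fin n))
    (hZ : ∀ r c : Fin k → Fin n, IsCopy H A r c → (r i₀, c j₀) ∈ Z) :
    orderedCopyCount H A ≤ Z.card * (n ^ (k - 1) * n ^ (k - 1)) := by
  classical
  unfold orderedCopyCount
  -- map a copy to (hub cell, (rows, cols))
  let T := {rc : (Fin k → Fin n) × (Fin k → Fin n) //
    StrictMono rc.1 ∧ StrictMono rc.2 ∧ ∀ i j : Fin k, A (rc.1 i) (rc.2 j) = H i j}
  let S := Σ z : {z : Fin n × Fin n // z ∈ Z},
    ({f : Fin k → Fin n // f i₀ = z.1.1} × {g : Fin k → Fin n // g j₀ = z.1.2})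
  let φ : T → S := fun x =>
    ⟨⟨(x.1.1 i₀, x.1.2 j₀), hZ x.1.1 x.1.2 x.2⟩, (⟨x.1.1, rfl⟩, ⟨x.1.2, rfl⟩)⟩
  have hφ : Function.Injective φ := by
    intro x y hxy
    apply Subtype.ext
    have h1 := congrArg (fun s : S => (s.2.1.1, s.2.2.1)) hxy
    simpa [φ, Prod.ext_iff] using h1
  have hcard : Fintype.card T ≤ Fintype.card S := Fintype.card_le_of_injective φ hφ
  refine hcard.trans ?_
  rw [Fintype.card_sigma]
  calc ∑ z : {z : Fin n × Fin n // z ∈ Z},
          Fintype.card ({f : Fin k → Fin n // f i₀ = z.1.1} × {g : Fin k → Fin n // g j₀ = z.1.2})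
        ≤ ∑ _z : {z : Fin n × Fin n // z ∈ Z}, n ^ (k - 1) * n ^ (k - 1) := by
          apply Finset.sum_le_sum
          intro z _
          rw [Fintype.card_prod]
          exact Nat.mul_le_mul (card_fun_fixed_le i₀ z.1.1) (card_fun_fixed_le j₀ z.1.2)
    _ = Z.card * (n ^ (k - 1) * n ^ (k - 1)) := by
          rw [Finset.sum_const, Finset.card_univ, Fintype.card_coe, smul_eq_mul]

end Crest.Agent.Helper45.OrdMat
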