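import Crest.Agent.Helper45.OrdMat.Basic

/-!
# Padding and the final arithmetic glue for S0066

* `pad m n A₀` : the `n × n` matrix with `A₀` in the top-left `m × m` corner and `false` elsewhere;
* `pad_spec` : if the pattern `H` has no all-`false` row and no all-`false` column, padding keeps a
  lower bound for the distance to `H`-freeness and an upper bound for the number of copies;
* `statement_of_family` : the body of the frozen statement S0066 (for a fixed `H`) from the two
  natural-number bounds `4^h ≤ diffCard A B` and `orderedCopyCount H A ≤ 2^h · n^130`.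
-/

set_option autoImplicit false

namespace Crest.Agent.Helper45.OrdMat

open Crest.CombinatoricsR.OrderedMatrix

variable {k : ℕ}

/-- Pad an `m × m` matrix to an `n × n` matrix by `false` entries. -/
def pad (m n : ℕ) (A₀ : Fin m → Fin m → Bool) : Fin n → Fin n → Bool :=
  fun i j => if h : i.val < m ∧ j.val < m then A₀ ⟨i.val, h.1⟩ ⟨j.val, h.2⟩ else false

theorem pad_eq_true {m n : ℕ} (A₀ : Fin m → Fin m → Bool) (i j : Fin n)
    (h : pad m n A₀ i j = true) : i.val < m ∧ j.val < m := by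
  unfold pad at h
  by_contra hcon
  rw [dif_neg hcon] at h
  exact Bool.false_ne_true h

theorem pad_apply {m n : ℕ} (A₀ : Fin m → Fin m → Bool) (i j : Fin n) (hi : i.val < m)
    (hj : j.val < m) : pad m n A₀ i j = A₀ ⟨i.val, hi⟩ ⟨j.val, hj⟩ := by
  unfold pad
  rw [dif_pos ⟨hi, hj⟩]

/-- Restriction of an `n × n` matrix to its top-left `m × m` corner. -/
def corner (m n : ℕ) (hmn : m ≤ n) (B : Fin n → Fin n → Bool) : Fin m → Fin m → Bool :=
  fun i j => B (Fin.castLE hmn i) (Fin.castLE hmn j)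

theorem corner_pad {m n : ℕ} (hmn : m ≤ n) (A₀ : Fin m → Fin m → Bool) :
    corner m n hmn (pad m n A₀) = A₀ := by
  funext i j
  unfold corner
  rw [pad_apply A₀ _ _ (by simp) (by simp)]
  rfl

/-- A copy in the corner is a copy in the whole matrix. -/
theorem isCopy_of_corner {m n : ℕ} (hmn : m ≤ n) (H : Fin k → Fin k → Bool)
    (B : Fin n → Fin n → Bool) (r c : Fin k → Fin m) (h : IsCopy H (corner m n hmn B) r c) :
    IsCopy H B (fun i => Fin.castLE hmn (r i)) (fun j => Fin.castLE hmn (c j)) := by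
  obtain ⟨hr, hc, hA⟩ := h
  refine ⟨?_, ?_, ?_⟩
  · intro i j hij
    exact Fin.strictMono_castLE hmn (hr hij)
  · intro i j hij
    exact Fin.strictMono_castLE hmn (hc hij)
  · intro i j
    exact hA i j

theorem corner_free {m n : ℕ} (hmn : m ≤ n) (H : Fin k → Fin k → Bool)
    (B : Fin n → Fin n → Bool) (hB : orderedCopyCount H B = 0) :
    orderedCopyCount H (corner m n hmn B) = 0 := by
  rw [orderedCopyCount_eq_zero_iff] at hB ⊢
  intro r c h
  exact hB _ _ (isCopy_of_corner hmn H B r c h)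

/-- Differences in the corner are differences in the whole matrix. -/
theorem diffCard_corner_le {m n : ℕ} (hmn : m ≤ n) (A B : Fin n → Fin n → Bool) :
    diffCard (corner m n hmn A) (corner m n hmn B) ≤ diffCard A B := by
  classical
  unfold diffCard
  apply Finset.card_le_card_of_injOn
    (fun p : Fin m × Fin m => (Fin.castLE hmn p.1, Fin.castLE hmn p.2))
  · intro p hp
    have hp' := (Finset.mem_filter.mp (Finset.mem_coe.mp hp)).2
    exact Finset.mem_coe.mpr (Finset.mem_filter.mpr ⟨Finset.mem_univ _, hp'⟩)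
  · intro p _ q _ hpq
    simp only [Prod.mk.injEq] at hpq
    exact Prod.ext (Fin.castLE_injective hmn hpq.1) (Fin.castLE_injective hmn hpq.2)

/-- Copies in a padded matrix live in the corner (if `H` has no `false` row and column). -/
theorem orderedCopyCount_pad_le {m n : ℕ} (H : Fin k → Fin k → Bool)
    (hrow : ∀ i, ∃ j, H i j = true) (hcol : ∀ j, ∃ i, H i j = true)
    (A₀ : Fin m → Fin m → Bool) :
    orderedCopyCount H (pad m n A₀) ≤ orderedCopyCount H A₀ := by
  classical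
  unfold orderedCopyCount
  -- every copy in the padded matrix uses only rows and columns `< m`
  have hlt : ∀ x : {rc : (Fin k → Fin n) × (Fin k → Fin n) //
      StrictMono rc.1 ∧ StrictMono rc.2 ∧ ∀ i j : Fin k, pad m n A₀ (rc.1 i) (rc.2 j) = H i j},
      (∀ i, (x.1.1 i).val < m) ∧ (∀ j, (x.1.2 j).val < m) := by
    intro x
    constructor
    · intro i
      obtain ⟨j, hj⟩ := hrow i
      have := x.2.2.2 i j
      rw [hj] at this
      exact (pad_eq_true A₀ _ _ this).1
    · intro j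
      obtain ⟨i, hi⟩ := hcol j
      have := x.2.2.2 i j
      rw [hi] at this
      exact (pad_eq_true A₀ _ _ this).2
  apply Fintype.card_le_of_injective
    (fun x => ⟨(fun i => ⟨(x.1.1 i).val, (hlt x).1 i⟩, fun j => ⟨(x.1.2 j).val, (hlt x).2 j⟩), by
      refine ⟨?_, ?_, ?_⟩
      · intro i j hij
        exact x.2.1 hij
      · intro i j hij
        exact x.2.2.1 hij
      · intro i j
        have := x.2.2.2 i j
        rw [pad_apply A₀ _ _ ((hlt x).1 i) ((hlt x).2 j)] at this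
        exact this⟩)
  intro x y hxy
  apply Subtype.ext
  have h1 := congrArg Subtype.val hxy
  simp only [Prod.mk.injEq] at h1
  apply Prod.ext
  · funext i
    have := congrFun h1.1 i
    exact Fin.ext (Fin.mk.inj_iff.mp this)
  · funext j
    have := congrFun h1.2 j
    exact Fin.ext (Fin.mk.inj_iff.mp this)

/-- **Padding lemma.**  Bounds for an `m × m` matrix transfer to an `n × n` matrix (`m ≤ n`),
provided `H` has no all-`false` row and no all-`false` column. -/
theorem pad_spec {m n : ℕ} (hmn : m ≤ n) (H : Fin k → Fin k → Bool)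
    (hrow : ∀ i, ∃ j, H i j = true) (hcol : ∀ j, ∃ i, H i j = true)
    (A₀ : Fin m → Fin m → Bool) (d N : ℕ)
    (hd : ∀ B₀ : Fin m → Fin m → Bool, orderedCopyCount H B₀ = 0 → d ≤ diffCard A₀ B₀)
    (hN : orderedCopyCount H A₀ ≤ N) :
    ∃ A : Fin n → Fin n → Bool,
      (∀ B : Fin n → Fin n → Bool, orderedCopyCount H B = 0 → d ≤ diffCard A B) ∧
      orderedCopyCount H A ≤ N := by
  refine ⟨pad m n A₀, ?_, (orderedCopyCount_pad_le H hrow hcol A₀).trans hN⟩
  intro B hB
  have h1 := hd (corner m n hmn B) (corner_free hmn H B hB)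
  have h2 := diffCard_corner_le hmn (pad m n A₀) B
  rw [corner_pad] at h2
  exact h1.trans h2

/-- abstract arithmetic: `(q²)⁻¹ (q P)² = P²`. -/
theorem glue_arith1 (q P : ℝ) (hq : 0 < q) : (q ^ 2)⁻¹ * (q * P) ^ 2 = P ^ 2 := by
  field_simp

/-- abstract arithmetic: `c ≤ P (qP)^130 → c / (qP)^132 ≤ (q²)⁻¹ P⁻¹`. -/
theorem glue_arith2 (q P Pinv c : ℝ) (hq : 0 < q) (hP : 0 < P) (hPinv : Pinv * P = 1)
    (hc : c ≤ P * (q * P) ^ 130) : c / (q * P) ^ 132 ≤ (q ^ 2)⁻¹ * Pinv := by
  have hqP : 0 < q * P := mul_pos hq hP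
  have h130 : 0 < (q * P) ^ 130 := pow_pos hqP 130
  rw [div_le_iff₀ (pow_pos hqP 132)]
  refine hc.trans (le_of_eq ?_)
  have h3 : (q * P) ^ 132 = (q * P) ^ 130 * (q ^ 2 * (P * P)) := by
    rw [show (132 : ℕ) = 130 + 2 from rfl, pow_add]
    congr 1
    rw [mul_pow, sq P]
  rw [h3]
  have hq2 : q ^ 2 ≠ 0 := (pow_pos hq 2).ne'
  calc P * (q * P) ^ 130 = (q * P) ^ 130 * ((q ^ 2)⁻¹ * q ^ 2) * ((Pinv * P) * P) := by
        rw [inv_mul_cancel₀ hq2, hPinv]; ring
    _ = (q ^ 2)⁻¹ * Pinv * ((q * P) ^ 130 * (q ^ 2 * (P * P))) := by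
        generalize (q * P) ^ 130 = X
        generalize (q ^ 2)⁻¹ = Y
        generalize q ^ 2 = W
        ring

/-- **Final glue for S0066.**  For a fixed pattern `H`, the body of the frozen statement follows
from: for every `h ≥ 1` some matrix `A` of size `n = (386 h + 2) 2^h` is at distance `≥ 4^h` from
every `H`-free matrix and contains at most `2^h · n^130` ordered copies of `H`. -/
theorem statement_of_family (H : Fin 66 → Fin 66 → Bool)
    (hfam : ∀ h : ℕ, 1 ≤ h →
      ∃ A : Fin ((386 * h + 2) * 2 ^ h) → Fin ((386 * h + 2) * 2 ^ h) → Bool,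
        (∀ B : Fin ((386 * h + 2) * 2 ^ h) → Fin ((386 * h + 2) * 2 ^ h) → Bool,
          orderedCopyCount H B = 0 → 4 ^ h ≤ diffCard A B) ∧
        orderedCopyCount H A ≤ 2 ^ h * ((386 * h + 2) * 2 ^ h) ^ 130) :
    ∀ h : ℕ, 1 ≤ h →
      ∃ A : Fin ((386 * h + 2) * 2 ^ h) → Fin ((386 * h + 2) * 2 ^ h) → Bool,
        (∀ B : Fin ((386 * h + 2) * 2 ^ h) → Fin ((386 * h + 2) * 2 ^ h) → Bool,
          Crest.CombinatoricsR.OrderedMatrix.orderedCopyCount H B = 0 →
            ((386 * (h : ℝ) + 2) ^ 2)⁻¹ * (((386 * h + 2) * 2 ^ h : ℕ) : ℝ) ^ 2 ≤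
              ((Finset.univ.filter (fun rc : Fin ((386 * h + 2) * 2 ^ h) × Fin ((386 * h + 2) * 2 ^ h) =>
                A rc.1 rc.2 ≠ B rc.1 rc.2)).card : ℝ)) ∧
        (Crest.CombinatoricsR.OrderedMatrix.orderedCopyCount H A : ℝ) /
            (((386 * h + 2) * 2 ^ h : ℕ) : ℝ) ^ 132 ≤
          ((386 * (h : ℝ) + 2) ^ 2)⁻¹ * (2 : ℝ)⁻¹ ^ h := by
  intro h hh
  obtain ⟨A, hA1, hA2⟩ := hfam h hh
  have hq : (0 : ℝ) < 386 * (h : ℝ) + 2 := by positivity
  have hP : (0 : ℝ) < (2 : ℝ) ^ h := by positivity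
  have hcast : (((386 * h + 2) * 2 ^ h : ℕ) : ℝ) = (386 * (h : ℝ) + 2) * (2 : ℝ) ^ h := by
    rw [Nat.cast_mul, Nat.cast_add, Nat.cast_mul, Nat.cast_pow]; norm_num
  refine ⟨A, ?_, ?_⟩
  · intro B hB
    have h1 := hA1 B hB
    rw [hcast, glue_arith1 _ _ hq]
    have h3 : ((4 ^ h : ℕ) : ℝ) ≤ (diffCard A B : ℝ) := Nat.cast_le.mpr h1
    have h5 : ((4 ^ h : ℕ) : ℝ) = ((2 : ℝ) ^ h) ^ 2 := by
      rw [Nat.cast_pow, ← pow_mul, mul_comm, pow_mul]; norm_num
    rw [h5] at h3
    exact h3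
  · rw [hcast]
    apply glue_arith2 _ _ _ _ hq hP
    · rw [← mul_pow]; norm_num
    · have h6 : ((orderedCopyCount H A : ℕ) : ℝ)
          ≤ ((2 ^ h * ((386 * h + 2) * 2 ^ h) ^ 130 : ℕ) : ℝ) := Nat.cast_le.mpr hA2
      refine h6.trans (le_of_eq ?_)
      rw [Nat.cast_mul, Nat.cast_pow, Nat.cast_pow, hcast]; norm_num

end Crest.Agent.Helper45.OrdMat
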